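import Vale.Agent.P281.H969.TGB.Core

/-!
# P281, T-GB: the first inequality, without a fibre of `f`
-/

open Set Filter Metric Vale.Agent.P281 Vale.Agent.P281.H713
open Vale.Agent.P272.K (Chart IsKahler IsHermitian Cm)
open Vale.Agent.P281.MF Vale.Agent.P281.ISO
open Vale.Agent.P281.H713.TZ
open Vale.Agent.P281.H64.Gen (IsSmallSet IsSmall2 IsAnalyticSet NoExc CritStmt ComplStmt)
open Vale.Agent.P281.H64.Thin (IsThinSet)
open Vale.Agent.P281.H64.TU (Tame KTame TameOK RelFormT HasFormsT)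
open Vale.Agent.P281.H969.TL Vale.Agent.P281.H969.TG Vale.Agent.P281.H969.TGB
open scoped Topology ContDiff Manifold

set_option linter.all false

noncomputable section

namespace Vale.Agent.P281.H969.SG

/-- the first inequality of T-GB -/
def FirstStmt : Prop :=
  ∀ (p d r : ℕ) (X₁ Y₁ X Y : Type) [TopologicalSpace X₁] [ChartedSpace (Cm (p + d)) X₁]
    [IsManifold 𝓘(ℂ, Cm (p + d)) ω X₁] [TopologicalSpace Y₁] [ChartedSpace (Cm p) Y₁]
    [IsManifold 𝓘(ℂ, Cm p) ω Y₁] [TopologicalSpace X] [ChartedSpace (Cm (p + d)) X]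
    [TopologicalSpace Y] [ChartedSpace (Cm p) Y] (f₁ : X₁ → Y₁) (Δ₁ : Set X₁ → ℝ) (f : X → Y)
    (Δ : Set X → ℝ) (u : X₁ → X) (v : Y₁ → Y) (S₀ : Set Y) (B : Set X), 0 < d →
    H511.Surf.IsFibration (Cm (p + d)) (Cm p) f₁ Δ₁ →
    H511.Surf.IsFibration (Cm (p + d)) (Cm p) f Δ →
    IsSqB (n := p + d) (p := p) f₁ Δ₁ f Δ u v S₀ B → HasFam p d r f₁ Δ₁ →
    ((r : ℕ∞) : WithBot ℕ∞) + TZ.S.kodF (p + d) p Δ (id : X → X) f ≤ TZ.S.kodX (Cm (p + d)) Δ

theorem first_of (crit : CritStmt) (fi : H64.TD.FibInStmt) (hBad : BadStmt) (lift : LiftTBStmt)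
    (hTame : TameUStmt) (hVS : VSmallStmt) (hCard : CardBStmt) (hTr : TraceBStmt) (hPow : PowStmt)
    (hExt : ExtRStmt) : FirstStmt := by
  intro p d r X₁ Y₁ X Y _ _ _ _ _ _ _ _ _ _ f₁ Δ₁ f Δ u v S₀ B hd h₁ h hsq hFam
  classical
  obtain ⟨w₁, S₁, hw₁, hS₁, hP₁, hF⟩ := hFam
  have : T2Space X₁ := h₁.hausdorff.1
  have : T2Space Y₁ := h₁.hausdorff.2
  have : CompactSpace X₁ := h₁.compact
  have : T2Space X := h.hausdorff.1
  have : T2Space Y := h.hausdorff.2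
  have : CompactSpace X := h.compact
  have : ConnectedSpace X := h.connected
  have : IsManifold 𝓘(ℂ, Cm (p + d)) ω X := h.manifold.1
  have : IsManifold 𝓘(ℂ, Cm p) ω Y := h.manifold.2
  have hsurj : Function.Surjective f := fun y => (h.fibres y).nonempty
  have hsurj₁ : Function.Surjective f₁ := fun y => (h₁.fibres y).nonempty
  have : CompactSpace Y₁ := by
    refine isCompact_univ_iff.1 ?_
    rw [← hsurj₁.range_eq]
    exact isCompact_range h₁.hol.continuous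
  have hprime : ∀ D ∈ h.snc.1.toFinset, J.IsPrime (Cm (p + d)) D := fun D hD =>
    h.snc.2.1 D (by simpa using hD)
  obtain ⟨Sc, hSc, hP⟩ := crit (p + d) p X Y f h.hol h.fibres
  obtain ⟨Sd, hcd, hSd, hne⟩ := fibIn_fin fi hd h.hol hP hSc h.snc.1.toFinset hprime
  obtain ⟨Sb, hdb, hSb, hneB⟩ := hBad p d X Y f Sd B h.hol hSd (hP Sd hcd hSd.1) hsq.small2
    hsq.an
  have hV : IsSmallSet (Cm p) (S₀ ∪ v '' S₁) :=
    hVS p Y₁ Y v S₀ S₁ hsq.holv hsq.small hsq.etale hS₁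
  have hS : IsSmallSet (Cm p) (Sb ∪ (S₀ ∪ v '' S₁)) := hSb.union hV
  obtain ⟨S, hSe⟩ : ∃ S, Sb ∪ (S₀ ∪ v '' S₁) = S := ⟨_, rfl⟩
  rw [hSe] at hS
  have hbS : Sb ⊆ S := by
    rw [← hSe]
    exact subset_union_left
  have hdS : Sd ⊆ S := hdb.trans hbS
  have h0S : S₀ ⊆ S := by
    rw [← hSe]
    exact subset_union_left.trans subset_union_right
  have hvS : ∀ y₁, v y₁ ∉ S → y₁ ∉ S₁ := by
    intro y₁ h1 h2
    rw [← hSe] at h1
    exact h1 (Or.inr (Or.inr ⟨y₁, h2, rfl⟩))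
  have hPS := hP S (hcd.trans hdS) hS.1
  have hu : ∀ x, HolM (Cm (p + d)) (Cm (p + d)) u x := fun x => hsq.holu.contMDiffAt
  obtain ⟨m, hm⟩ := hCard (p + d) p X₁ X Y u f S Δ B hsq.holu h.hol hsurj hS hPS.submersive h.snc
    hsq.small2 fun x₁ h1 h3 h2 => inj_of_det (etale_of_le (hu x₁) h₁.snc h.snc
      (hsq.le x₁ (fun h3 => h1 (by rw [hsq.comm]; exact h0S h3)) h3) h2)
  let e₀ : Cm (p + d) ≃L[ℂ] (Cm p × Cm d) := ContinuousLinearEquiv.ofFinrankEq (by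
    simp)
  have hforms : ∀ y ∉ S, HasFormsT (OffT B (UTame u w₁)) f S e₀ Δ r y :=
    descB hTr hPow hExt hd hsq h₁.hol h.hol hsurj h₁.snc h.snc hS.1 h0S hvS hP₁.submersive
      hPS.submersive (fun y hy D hD => hne D (by simpa using hD) y fun h3 => hy (hdS h3))
      (fun y hy => hneB y fun h3 => hy (hbS h3))
      (fun y hy => (hPS.connected y hy).isPreconnected)
      (fun y hy => (hP₁.connected y hy).isPreconnected) hm (hF e₀)
  refine H303.UF.first_of fun j₂ h₂ => ?_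
  exact lift (p + d) p X Y (Cm d) (OffT B (UTame u w₁)) f S e₀ Δ r j₂ B hsq.small2
    (tameOffB hsq.small2.1 (hTame (p + d) d X₁ X u w₁ hsq.holu hw₁)) h.hol hS hPS.submersive
    h.snc hforms h₂

end Vale.Agent.P281.H969.SG
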