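import Vale.Agent.P281.H969.SG.Stat
import Vale.Agent.P281.H969.TGB.Spec
import Vale.Agent.P281.H969.TG.Desc
import Vale.Agent.P281.H603.TG.FamE
import Vale.Agent.P281.H383.TG.UD

/-!
# P281: fibrations dominated by generically finite maps, the statement from T-GB and the families
-/

open Set Filter Metric Vale.Agent.P281 Vale.Agent.P281.H713.TZ.S
open Vale.Agent.P272.K (Chart IsKahler)
open Vale.Agent.P281.H511.Surf (IsFibration)
open Vale.Agent.P281.H64.Thin (IsThinSet)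
open Vale.Agent.P281.H64.Z
open Vale.Agent.P281.H969.TG (HasFam)
open Vale.Agent.P281.H969.TGB (IsSqB TGBStmt)
open Vale.Agent.P281.H383.TG (FamLe)
open scoped Manifold ContDiff Topology

set_option linter.unusedSectionVars false

noncomputable section

namespace Vale.Agent.P281.H969.SG

theorem thins_empty {p : ℕ} {Y : Type} [TopologicalSpace Y] [ChartedSpace (Cm p) Y] :
    Thins p (fun _ => (∅ : Set Y)) := fun _ => by
  refine ⟨isClosed_empty, fun y => ⟨fun _ => 1, contMDiffAt_const, fun h => ?_,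
    Filter.Eventually.of_forall fun z hz => hz.elim⟩⟩
  exact one_ne_zero h.self_of_nhds

theorem union {p : ℕ} {Y : Type} [TopologicalSpace Y] [ChartedSpace (Cm p) Y]
    {H H' : ℕ → Set Y} (hH : Thins p H) (hH' : Thins p H') :
    ∃ K : ℕ → Set Y, Thins p K ∧ ∀ y, (∀ j, y ∉ K j) → (∀ j, y ∉ H j) ∧ ∀ j, y ∉ H' j := by
  refine ⟨fun j => if j % 2 = 0 then H (j / 2) else H' (j / 2), fun j => ?_, fun y hy => ⟨fun j => ?_,
    fun j => ?_⟩⟩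
  · by_cases h : j % 2 = 0
    · simp only [h, if_true]
      exact hH _
    · simp only [h, if_false]
      exact hH' _
  · have := hy (2 * j)
    have h1 : (2 * j) % 2 = 0 := by omega
    have h2 : (2 * j) / 2 = j := by omega
    simpa only [h1, if_true, h2] using this
  · have := hy (2 * j + 1)
    have h1 : ¬ (2 * j + 1) % 2 = 0 := by omega
    have h2 : (2 * j + 1) / 2 = j := by omega
    simpa only [h1, if_false, h2] using this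

/-! ### The square -/

theorem etale_of {p : ℕ} {Y₁ Y : Type} [TopologicalSpace Y₁] [ChartedSpace (Cm p) Y₁]
    [IsManifold 𝓘(ℂ, Cm p) ω Y₁] [TopologicalSpace Y] [ChartedSpace (Cm p) Y]
    [IsManifold 𝓘(ℂ, Cm p) ω Y] {v : Y₁ → Y} (hv : ContMDiff 𝓘(ℂ, Cm p) 𝓘(ℂ, Cm p) ω v) {y₁ : Y₁}
    (h : jdet p v y₁ y₁ ≠ 0) : Function.Injective (mfderiv 𝓘(ℂ, Cm p) 𝓘(ℂ, Cm p) v y₁) := by
  have h1 := (H969.TG.dc_jac (n := p) (u := v) (x₁ := y₁) (hv y₁)).self_of_nhds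
  have h2 : H969.TG.dc p v y₁ y₁ ≠ 0 := h
  have h3 : H969.TG.dc p v y₁ y₁ * jac (Cm p) (chartAt (Cm p) y₁) y₁ ≠ 0 :=
    mul_ne_zero h2 (jac_chart_ne_zero (mem_chart_source _ y₁))
  rw [← h1] at h3
  exact H969.TG.inj_of_det (right_ne_zero_of_mul h3)

theorem sqB_of {n p : ℕ} {X₁ Y₁ X Y : Type} [TopologicalSpace X₁] [ChartedSpace (Cm n) X₁]
    [TopologicalSpace Y₁] [ChartedSpace (Cm p) Y₁] [TopologicalSpace X] [ChartedSpace (Cm n) X]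
    [TopologicalSpace Y] [ChartedSpace (Cm p) Y] {f₁ : X₁ → Y₁} {Δ₁ : Set X₁ → ℝ} {f : X → Y}
    {Δ : Set X → ℝ} (h₁ : Fibn n p f₁ Δ₁) (h : Fibn n p f Δ) (hdom : Dominates n p f₁ Δ₁ f Δ) :
    ∃ (u : X₁ → X) (v : Y₁ → Y) (S₀ : Set Y) (B : Set X),
      IsSqB (n := n) (p := p) f₁ Δ₁ f Δ u v S₀ B := by
  obtain ⟨u, v, S, B, hu, hv, hc, hs, hS, he, hB, hle⟩ := hdom
  have : IsManifold 𝓘(ℂ, Cm p) ω Y₁ := h₁.manifold.2
  have : IsManifold 𝓘(ℂ, Cm p) ω Y := h.manifold.2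
  exact ⟨u, v, S, B, hu, hv, hc, hs, hS, fun y₁ hy => etale_of hv (he y₁ hy), ⟨hB.2.1, hB.2.2⟩,
    hB.1, fun x₁ h1 h2 => hle x₁ (by rw [hc x₁]; exact h1) h2⟩

/-! ### The families -/

/-- the input of T-E -/
def FamEStmt : Prop :=
  ∀ (p d : ℕ) (X Y : Type) [TopologicalSpace X]
    [ChartedSpace (Cm (p + d)) X] [IsManifold 𝓘(ℂ, Cm (p + d)) ω X] [TopologicalSpace Y]
    [ChartedSpace (Cm p) Y] [IsManifold 𝓘(ℂ, Cm p) ω Y] (f : X → Y) (Δ : Set X → ℝ), 0 < d →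
    IsFibration (Cm (p + d)) (Cm p) f Δ → Kahler (p + d) X →
    ∃ H : ℕ → Set Y, Thins p H ∧ ∀ y, (∀ k, y ∉ H k) →
      ∀ (F : Type) [TopologicalSpace F] [T2Space F] [ChartedSpace (Cm d) F] (i : F → X),
        Fbr (p + d) d f y i → ∀ r : ℕ, H64.TK.GaussRank d F r → HasFam p d r f Δ

/-- the input of T-UD -/
def FamUDStmt : Prop :=
  ∀ (p d : ℕ) (X Y : Type) [TopologicalSpace X]
    [ChartedSpace (Cm (p + d)) X] [IsManifold 𝓘(ℂ, Cm (p + d)) ω X] [TopologicalSpace Y]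
    [ChartedSpace (Cm p) Y] [IsManifold 𝓘(ℂ, Cm p) ω Y] (f : X → Y) (Δ : Set X → ℝ), 0 < d →
    IsFibration (Cm (p + d)) (Cm p) f Δ → Kahler (p + d) X →
    ∃ H : ℕ → Set Y, Thins p H ∧ ∀ y, (∀ k, y ∉ H k) →
      ∀ (F : Type) [TopologicalSpace F] [T2Space F] [ChartedSpace (Cm d) F] (i : F → X),
        Fbr (p + d) d f y i → H64.TU.IsGen d F → FamLe p d f Δ

/-- the input of T-HK -/
def FamHStmt : Prop :=
  ∀ (p d : ℕ) (X Y : Type) [TopologicalSpace X]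
    [ChartedSpace (Cm (p + d)) X] [IsManifold 𝓘(ℂ, Cm (p + d)) ω X] [TopologicalSpace Y]
    [ChartedSpace (Cm p) Y] [IsManifold 𝓘(ℂ, Cm p) ω Y] (f : X → Y) (Δ : Set X → ℝ), 2 ≤ d →
    IsFibration (Cm (p + d)) (Cm p) f Δ → Kahler (p + d) X →
    ∃ H : ℕ → Set Y, Thins p H ∧ ∀ y, (∀ k, y ∉ H k) →
      ∀ (F : Type) [TopologicalSpace F] [T2Space F] [SimplyConnectedSpace F]
        [ChartedSpace (Cm d) F] (i : F → X), Fbr (p + d) d f y i →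
        Sympl d F → HasFam p d 0 f Δ

theorem hasFam_of (fe : FamEStmt) (fu : FamUDStmt) (fh : FamHStmt) {p d r : ℕ} {X Y : Type}
    [TopologicalSpace X] [ChartedSpace (Cm (p + d)) X] [IsManifold 𝓘(ℂ, Cm (p + d)) ω X]
    [TopologicalSpace Y] [ChartedSpace (Cm p) Y] [IsManifold 𝓘(ℂ, Cm p) ω Y] {f : X → Y}
    {Δ : Set X → ℝ} (hd : 0 < d) (h : Fibn (p + d) p f Δ) (hc : Cls (p + d) p d f Δ r) :
    HasFam p d r f Δ := by
  obtain ⟨hK, hc⟩ := hc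
  obtain ⟨H₁, hH₁, h₁⟩ := fe p d X Y f Δ hd h hK
  obtain ⟨H₂, hH₂, h₂⟩ := fu p d X Y f Δ hd h hK
  have h3 : ∃ H : ℕ → Set Y, Thins p H ∧ ∀ y, (∀ k, y ∉ H k) →
      ∀ (F : Type) [TopologicalSpace F] [T2Space F] [SimplyConnectedSpace F]
        [ChartedSpace (Cm d) F] (i : F → X), Fbr (p + d) d f y i → 2 ≤ d →
        Sympl d F → HasFam p d 0 f Δ := by
    by_cases hd2 : 2 ≤ d
    · obtain ⟨H, hH, hm⟩ := fh p d X Y f Δ hd2 h hK
      exact ⟨H, hH, fun y hy F _ _ _ _ i hi _ hs => hm y hy F i hi hs⟩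
    · exact ⟨_, thins_empty, fun y _ F _ _ _ _ i _ h => absurd h hd2⟩
  have h4 : ∃ H : ℕ → Set Y, Thins p H ∧ (FamLe p d f Δ → ∃ s : ℕ, HasFam p d s f Δ ∧
      ∀ y, (∀ k, y ∉ H k) → ∀ (F : Type) [TopologicalSpace F] [T2Space F]
        [ChartedSpace (Cm d) F] (i : F → X), Fbr (p + d) d f y i →
        kR (p + d) d i Δ ≤ ((s : ℕ∞) : WithBot ℕ∞)) := by
    by_cases hF : FamLe p d f Δ
    · obtain ⟨s, hs, H, hH, hm⟩ := hF
      exact ⟨H, hH, fun _ => ⟨s, hs, hm⟩⟩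
    · exact ⟨_, thins_empty, fun h => absurd h hF⟩
  obtain ⟨H₃, hH₃, h₃⟩ := h3
  obtain ⟨H₄, hH₄, h₄⟩ := h4
  obtain ⟨K, hK, hKy⟩ := union hH₁ hH₂
  obtain ⟨K', hK', hKy'⟩ := union hH₃ hH₄
  obtain ⟨L, hL, hLy⟩ := union hK hK'
  obtain ⟨y, hy, F, _, _, _, i, hi, hcase⟩ := hc L hL
  obtain ⟨hy12, hy34⟩ := hLy y hy
  obtain ⟨hy1, hy2⟩ := hKy y hy12
  obtain ⟨hy3, hy4⟩ := hKy' y hy34
  rcases hcase with hg | ⟨hg, hr⟩ | ⟨hd2, hsc, hs, rfl⟩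
  · exact h₁ y hy1 F i hi r hg
  · obtain ⟨s, hs, hm⟩ := h₄ (h₂ y hy2 F i hi hg)
    have h5 : ((r : ℕ∞) : WithBot ℕ∞) ≤ ((s : ℕ∞) : WithBot ℕ∞) := hr.trans (hm y hy4 F i hi)
    have h6 : r ≤ s := by exact_mod_cast h5
    exact H603.TG.fam_mono h6 hs
  · exact h₃ y hy3 F i hi hd2 hs

end Vale.Agent.P281.H969.SG
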