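import Vale.Agent.P281.H969.SG.Core
import Vale.Agent.P281.H969.SG.First
import Vale.Agent.P281.H303.X.Fin

/-!
# P281: fibrations dominated by generically finite maps, the statement from T-GB and the families
-/

open Set Filter Metric Vale.Agent.P281 Vale.Agent.P281.H713.TZ.S
open Vale.Agent.P272.K (Chart IsKahler)
open Vale.Agent.P281.H511.Surf (IsFibration)
open Vale.Agent.P281.H64.Thin (IsThinSet)
open Vale.Agent.P281.H64.Z
open Vale.Agent.P281.H969.TG (HasFam)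
open scoped Manifold ContDiff Topology

set_option linter.all false

noncomputable section

namespace Vale.Agent.P281.H969.SG

section

variable {n p d : ℕ} {X Y : Type} [tX : TopologicalSpace X] [cX : ChartedSpace (Cm n) X]
  [tY : TopologicalSpace Y] [cY : ChartedSpace (Cm p) Y] {f : X → Y} {Δ : Set X → ℝ}

theorem hasNeat_iff : HasNeat n p f Δ ↔ p = 1 ∨ H303.X.HasMildModel n p f Δ := by
  refine or_congr Iff.rfl ⟨?_, ?_⟩
  · rintro ⟨X₁, Y₁, _, _, _, _, f₁, Δ₁, h1, h2, h3⟩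
    exact ⟨X₁, Y₁, _, _, _, _, f₁, Δ₁, ⟨h1, h2⟩, h3⟩
  · rintro ⟨X₁, Y₁, _, _, _, _, f₁, Δ₁, ⟨h1, h2⟩, h3⟩
    exact ⟨X₁, Y₁, _, _, _, _, f₁, Δ₁, h1, h2, h3⟩

theorem addLe_of (hf : Fibn n p f Δ) {a : WithBot ℕ∞} (h : a + kY n p f Δ ≤ kX n Δ) :
    AddLe n p f Δ a :=
  ⟨h, fun hn => (add_le_add le_rfl (H303.X.kap_le_or hf (hasNeat_iff.1 hn))).trans h⟩

theorem addLe_mono {a b : WithBot ℕ∞} (h : AddLe n p f Δ b) (hab : a ≤ b) : AddLe n p f Δ a :=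
  ⟨(add_le_add hab le_rfl).trans h.1, fun hn => (add_le_add hab le_rfl).trans (h.2 hn)⟩

end

/-- **the statement** -/
theorem main_of (first : FirstStmt) (fe : FamEStmt) (fu : FamUDStmt) (fh : FamHStmt) {p d r : ℕ}
    (hd : 0 < d) {X₁ Y₁ X Y : Type} [TopologicalSpace X₁] [ChartedSpace (Cm (p + d)) X₁]
    [TopologicalSpace Y₁] [ChartedSpace (Cm p) Y₁] [TopologicalSpace X]
    [ChartedSpace (Cm (p + d)) X] [TopologicalSpace Y] [ChartedSpace (Cm p) Y]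
    (f₁ : X₁ → Y₁) (Δ₁ : Set X₁ → ℝ) (f : X → Y) (Δ : Set X → ℝ)
    (h₁ : Fibn (p + d) p f₁ Δ₁) (h : Fibn (p + d) p f Δ)
    (hdom : Dominates (p + d) p f₁ Δ₁ f Δ) (hcls : Cls (p + d) p d f₁ Δ₁ r) :
    AddLe (p + d) p f Δ ((r : ℕ∞) : WithBot ℕ∞) ∧ ForAll (p + d) p d f fun F _ _ i =>
      kR (p + d) d i Δ ≤ ((r : ℕ∞) : WithBot ℕ∞) → AddLe (p + d) p f Δ (kR (p + d) d i Δ) := by
  have : IsManifold 𝓘(ℂ, Cm (p + d)) ω X₁ := h₁.manifold.1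
  have : IsManifold 𝓘(ℂ, Cm p) ω Y₁ := h₁.manifold.2
  obtain ⟨u, v, S₀, B, hsq⟩ := sqB_of h₁ h hdom
  have h1 := addLe_of h (first p d r X₁ Y₁ X Y f₁ Δ₁ f Δ u v S₀ B hd h₁ h hsq
    (hasFam_of fe fu fh hd h₁ hcls))
  exact ⟨h1, _, thins_empty, fun y _ F _ _ _ i _ hr => addLe_mono h1 hr⟩

end Vale.Agent.P281.H969.SG
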